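import Vale.Agent.P237.Low.Three
import Vale.Agent.P237.Four.Equality
import Vale.Agent.P237.Five.Equality
import Vale.Agent.P237.Five.Stagewise

/-!
Petty's inequality with its equality cases in dimensions three, four and five.
-/

open MeasureTheory Set

namespace Vale.Agent.P237.Low

noncomputable section

theorem dpsi_five : Five.DPsiNonneg :=
  fun _ hP _ hg _ h0 h1 hW => Five.dpsi_nonneg hP hg h0 h1 hW

/-- **Petty's projection volume conjecture in dimensions three, four and five.** -/
theorem petty_low (n : ℕ) (h3 : 3 ≤ n) (h5 : n ≤ 5) {K : Set (EuclideanSpace ℝ (Fin n))}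
    (hc : Convex ℝ K) (hk : IsCompact K) (hi : (interior K).Nonempty) :
    Every.kappa (n - 1) ^ n / Every.kappa n ^ (n - 2) * volume.real K ^ (n - 1) ≤
        volume.real (Every.projBody K) ∧
      (volume.real (Every.projBody K) =
          Every.kappa (n - 1) ^ n / Every.kappa n ^ (n - 2) * volume.real K ^ (n - 1) ↔
        ∃ (a : EuclideanSpace ℝ (Fin n))
          (T : EuclideanSpace ℝ (Fin n) ≃ₗ[ℝ] EuclideanSpace ℝ (Fin n)),
          K = (fun x => a + T x) '' Metric.closedBall 0 1) := by
  interval_cases n
  · exact petty_three_full hc hk hi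
  · exact ⟨Four.petty_four_kappa Four.stage_lemma hc hk, Four.petty_four_eq_iff hc hk hi⟩
  · exact ⟨Five.petty_five (Five.stageLemma_of_dpsi dpsi_five) hc hk,
      Five.petty_five_eq_iff dpsi_five hc hk hi⟩

end

end Vale.Agent.P237.Low
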