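import Vale.Agent.P237.Four.Wiring
import Vale.Agent.P237.Gen.Equality.Euclid
import Vale.Agent.P237.Gen.Equality.Contact

/-!
Petty's inequality in dimension three with its equality cases, in the notation of every dimension.
-/

open MeasureTheory Set
open Vale.Agent.P237.Gen
open Vale.Agent.P237.Gen.Contact (pw semi Adm excess)

namespace Vale.Agent.P237.Low

noncomputable section

theorem contactEq_two : Gen.Eq.ContactEq 2 (pcN (2 + 1) / pcN 2) := by
  refine Gen.Eq.contactEq_of_profile le_rfl fun f hf h0 hle => ?_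
  have hm := Four.moment_of_excess hf h0
  rw [Four.pw_two_semi] at hm
  norm_num at hm
  simp only [show (2:ℕ) - 1 = 1 from rfl, Four.pw_one_semi, Four.pw_two_semi, pow_one] at hle ⊢
  simp only [pw, pow_one] at hm hle ⊢
  refine Profile.profile_core_eq ⟨hf.conc, hf.anti, hf.ge⟩ ?_ ?_
  · rw [show (3 / 2 : ℝ) * (∫ t in (0:ℝ)..1, f t ^ 2) = (∫ t in (0:ℝ)..1, f t ^ 2) / (2 / 3) by ring]
    linarith
  · nlinarith [hle, Real.pi_pos]

theorem petty_two_fin : ∀ S : Set (Fin 2 → ℝ), IsCompact S → Convex ℝ S →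
    pcN 2 * volume.real S ^ (2 - 1) ≤ volume.real (AllN.piSet S) :=
  petty_of_sharpContact 2 le_rfl fun n h2 h3 => absurd h2 (by omega)

theorem petty_three_body : Gen.Eq.Petty 2 (pcN 2 * (pcN (2 + 1) / pcN 2)) := by
  intro K hK
  rw [mul_div_cancel₀ _ (pcN_pos 2).ne']
  exact petty_of_sharpContact 3 (by norm_num) (fun n h2 h3 => by
    interval_cases n
    exact Four.sharpContact_two) K hK.2.1 hK.1

/-- **Petty's inequality in dimension three with its equality cases.** -/
theorem petty_three_full {K : Set (EuclideanSpace ℝ (Fin 3))} (hc : Convex ℝ K) (hk : IsCompact K)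
    (hi : (interior K).Nonempty) :
    pcN 3 * volume.real K ^ 2 ≤ volume.real (Every.projBody K) ∧
      (volume.real (Every.projBody K) = pcN 3 * volume.real K ^ 2 ↔
        ∃ (a : EuclideanSpace ℝ (Fin 3))
          (T : EuclideanSpace ℝ (Fin 3) ≃ₗ[ℝ] EuclideanSpace ℝ (Fin 3)),
          K = (fun x => a + T x) '' Metric.closedBall 0 1) :=
  ⟨petty_euclid_of_sharpContact (n := 2) one_le_two (fun n h2 h3 => by
      interval_cases n
      exact Four.sharpContact_two) hc hk,
    Gen.Eq.projBody_eq_iff (n := 2) le_rfl (pcN_pos 2) (div_pos (pcN_pos 3) (pcN_pos 2))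
      (mul_div_cancel₀ _ (pcN_pos 2).ne') petty_two_fin petty_three_body contactEq_two hc hk hi⟩

end

end Vale.Agent.P237.Low
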